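import Vale.Agent.P272.K.AMP.NF.H291.N5
import Vale.Agent.P272.K.AMP.Main.Assembly

/-! # AMP-NF, block N5 in the form `DDMain` -/

open scoped Manifold ContDiff ComplexOrder Topology

noncomputable section

namespace Vale.Agent.P272.K.AMP.NF

variable {n : ℕ} {X : Type} [TopologicalSpace X] [ChartedSpace (Cm n) X]
  [IsManifold 𝓘(ℂ, Cm n) ω X] [T2Space X] [CompactSpace X]
  {w h : Chart n X → Cm n → Matrix (Fin n) (Fin n) ℂ}

/-- **Block N5.** -/
theorem ddMain (hn : 2 ≤ n) (hw : IsKahler w) (hh : IsHermitian h) (hneg : NonposHSC h)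
    (hN1 : N1 n X) (hN4 : N4 n X) (hC : CoerN h) : Main.DDMain n X w :=
  DD.N5.ddNF hn hw hh hneg hN1 hN4 hC

end Vale.Agent.P272.K.AMP.NF

namespace Vale.Agent.P272.K.AMP

variable {n : ℕ} {X : Type} [TopologicalSpace X] [ChartedSpace (Cm n) X]
  [IsManifold 𝓘(ℂ, Cm n) ω X] [T2Space X] [CompactSpace X]
  {w h : Chart n X → Cm n → Matrix (Fin n) (Fin n) ℂ}

/-- Steps 5 and 6 in the form `DDMain` -/
theorem ddMain_negHSC (hn : 2 ≤ n) (hw : IsKahler w) (hh : IsHermitian h) (hneg : NegHSC h) :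
    Main.DDMain n X w := dd_main hn hw hh hneg

end Vale.Agent.P272.K.AMP
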