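import Vale.Agent.P272.K.AMP.NF.H291.Core
import Vale.Agent.P272.K.AMP.NF.Defs
import Vale.Agent.P272.K.AMP.QH.Conv
import Vale.Agent.P272.K.T4.L5GlobA
import Vale.Agent.P272.K.T4.Fun

/-!
# AMP-NF, block N5: the weighted trace estimate from N1 and N4
-/

open scoped Manifold ContDiff ComplexOrder Topology
open Complex Set Filter MeasureTheory

set_option linter.all false

noncomputable section

namespace Vale.Agent.P272.K.AMP.DD.N5

open INT (IsDensity intX part Part IsClosedForm)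
open T4

lemma alg1 (K P b N T d : ℝ) (hP : P ≠ 0) (hb : b ≠ 0) :
    (-K * (P * b⁻¹)) * (-K * (P * b⁻¹)) * N / P * (T * d) =
      K ^ 2 * (P * b⁻¹ * (N / b * T)) * d := by
  field_simp

lemma alg2 {δ r T : ℝ} (hδ : 0 < δ) (hr : 0 ≤ r) : r * T ≤ δ * (r * T ^ 2) + δ⁻¹ * r := by
  have t1 : δ * (r * T ^ 2) + δ⁻¹ * r - r * T = r * (((2 * δ * T - 1) ^ 2 + 3) / (4 * δ)) := by
    field_simp
    ring
  have t2 : 0 ≤ r * (((2 * δ * T - 1) ^ 2 + 3) / (4 * δ)) := by positivity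
  linarith

/-- the final arithmetic -/
lemma arith {c0 C4 Cδ K M δ I0 I1 I2 J HH IPv IMv QD : ℝ} (hc0 : 0 < c0) (hC4 : 0 ≤ C4)
    (hK : 0 ≤ K) (hM : M = 1 + 1 / (2 * c0) + K / (2 * c0))
    (hδ : δ = 1 / (6 * c0 * (C4 + 1) * M)) (hJ : 0 ≤ J) (hI2 : 0 ≤ I2)
    (hp : 0 ≤ IPv) (hm : 0 ≤ IMv) (k1 : IPv + 2 * c0 * IMv = c0 * QD + 2 * c0 * I1)
    (k2 : QD + 2 * K * J ≤ δ * I2 + Cδ * HH) (k3 : I1 ≤ δ * I2 + δ⁻¹ * I0)
    (k4 : I2 ≤ C4 * (I0 + IPv + IMv + K ^ 2 * J)) :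
    I2 ≤ 2 * C4 * (1 + 2 * M * c0 * δ⁻¹) * I0 + 2 * C4 * M * c0 * Cδ * HH := by
  have hM0 : 0 < M := by rw [hM]; positivity
  obtain ⟨RR, hRR⟩ : ∃ RR, RR = 3 * c0 * δ * I2 + c0 * Cδ * HH + 2 * c0 * δ⁻¹ * I0 := ⟨_, rfl⟩
  have k5 : IPv + 2 * c0 * IMv + 2 * c0 * K * J ≤ RR := by
    have a1 := mul_le_mul_of_nonneg_left k2 hc0.le
    have a2 := mul_le_mul_of_nonneg_left k3 (by positivity : (0 : ℝ) ≤ 2 * c0)
    rw [k1, hRR]
    linarith
  have hcJ : 0 ≤ 2 * c0 * K * J := by positivity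
  have hcM : 0 ≤ 2 * c0 * IMv := by positivity
  have b1 : IPv ≤ RR := by linarith
  have b2 : IMv ≤ RR / (2 * c0) := by
    rw [le_div_iff₀ (by positivity)]; linarith
  have b3 : K * J ≤ RR / (2 * c0) := by
    rw [le_div_iff₀ (by positivity)]; linarith
  have b4 : K ^ 2 * J ≤ K * (RR / (2 * c0)) := by
    have := mul_le_mul_of_nonneg_left b3 hK
    linarith [this]
  have k6 : I2 ≤ C4 * (I0 + M * RR) := by
    refine k4.trans (mul_le_mul_of_nonneg_left ?_ hC4)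
    have : M * RR = RR + RR / (2 * c0) + K * (RR / (2 * c0)) := by
      rw [hM]; ring
    linarith
  have k7 : C4 * (M * (3 * c0 * δ * I2)) ≤ I2 / 2 := by
    have h1 : C4 * (M * (3 * c0 * δ)) ≤ 1 / 2 := by
      have e1 : C4 * (M * (3 * c0 * δ)) = (C4 / (C4 + 1)) / 2 := by
        rw [hδ]; field_simp; ring
      rw [e1]
      have : C4 / (C4 + 1) ≤ 1 := by
        rw [div_le_one (by positivity)]; linarith
      linarith
    have := mul_le_mul_of_nonneg_right h1 hI2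
    linarith
  have e2 : C4 * (I0 + M * RR) = C4 * (M * (3 * c0 * δ * I2)) +
      (C4 * (1 + 2 * M * c0 * δ⁻¹) * I0 + C4 * M * c0 * Cδ * HH) := by
    rw [hRR]; ring
  rw [e2] at k6
  linarith

lemma arith2 {a1 a2 c I0 I2 G0 HH S : ℝ} (h1 : 0 ≤ a1) (h2 : 0 ≤ a2) (hc : 0 ≤ c)
    (i0 : 0 ≤ I0) (n2 : 0 ≤ HH) (i4 : I0 ≤ G0) (k8 : I2 ≤ a1 * I0 + a2 * HH)
    (i5 : S ≤ c * I2) : S ≤ (c * (a1 + a2) + 1) * (G0 + HH) := by
  have n1 : 0 ≤ G0 := i0.trans i4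
  have k9 : I2 ≤ (a1 + a2) * (G0 + HH) := by
    nlinarith [mul_nonneg h1 n2, mul_nonneg h2 n1, mul_le_mul_of_nonneg_left i4 h1]
  have k10 := mul_le_mul_of_nonneg_left k9 hc
  have := add_nonneg n1 n2
  nlinarith

variable {n : ℕ} {X : Type} [TopologicalSpace X] [ChartedSpace (Cm n) X]
  [IsManifold 𝓘(ℂ, Cm n) ω X] [T2Space X] [CompactSpace X]
  {w g h : Chart n X → Cm n → Matrix (Fin n) (Fin n) ℂ} {B ρ : X → ℝ}

omit [T2Space X] [CompactSpace X] in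
lemma Tr_eq (hg : IsHermitian g) (hh : IsHermitian h) {e : Chart n X} {x : X} (hx : At e x) :
    Tr g h e (e x) = trX g h x := (trX_eq hg hh.isForm hx).symm

lemma IT_eq (hg : IsHermitian g) (hh : IsHermitian h) (k : ℕ) :
    NF.IT k g h ρ = IX g (fun x => ρ x * trX g h x ^ k) := by
  refine INT.intX_congr fun e x hx => ?_
  have hxx : e.symm (e x) = x := e.left_inv hx.2
  simp only [hxx, Tr_eq hg hh hx]
  unfold dt
  ring

lemma IP_nonneg {χ : ℝ → ℝ} (hχ : Wt χ) (hg : IsHermitian g) (hh : IsHermitian h)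
    (hneg : NonposHSC h) (hρ : ∀ x, 0 ≤ ρ x) : 0 ≤ NF.IP χ g h ρ := by
  refine INT.intX_nonneg fun e x hx => mul_nonneg (hρ _) ?_
  have h3 : 0 < (g e (e x)).det.re := (Complex.lt_def.1 (hg.posDef e x hx).det_pos).1
  refine mul_nonneg ?_ h3.le
  refine integral_nonneg fun w => ?_
  exact mul_nonneg (mul_nonneg (add_nonneg (Pq_nonneg g hh hx w) (Rq_nonneg hneg hx w))
      (hχ.nonneg _)) h3.le

lemma IM_nonneg (hg : IsHermitian g) (hh : IsHermitian h) (hric : T4.RicGe g)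
    (hρ : ∀ x, 0 ≤ ρ x) : 0 ≤ NF.IM g h ρ := by
  refine INT.intX_nonneg fun e x hx => mul_nonneg (hρ _) ?_
  have h3 : 0 < (g e (e x)).det.re := (Complex.lt_def.1 (hg.posDef e x hx).det_pos).1
  exact mul_nonneg (Ml_nonneg hg hh hric hx) h3.le

omit [T2Space X] [CompactSpace X] in
lemma gradX_rho (m : ℕ) (hB : SmoothFn (n := n) B) (hB0 : ∀ x, 0 < B x) (x : X) :
    gradX g (fun x => ((B x)⁻¹) ^ m) (fun x => ((B x)⁻¹) ^ m) x =
      (-(m : ℝ) * ((B x)⁻¹) ^ (m + 1)) * (-(m : ℝ) * ((B x)⁻¹) ^ (m + 1)) * gradX g B B x := by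
  have hd := hasDerivAt_inv_pow m (hB0 x).ne'
  exact gradX_comp_hasDerivAt (φ := fun s : ℝ => (s⁻¹) ^ m) (ψ := fun s : ℝ => (s⁻¹) ^ m)
    hB hB hd hd

omit [T2Space X] [CompactSpace X] in
lemma IG_point (m : ℕ) (hB : SmoothFn (n := n) B) (hB0 : ∀ x, 0 < B x) (x : X) (T d : ℝ) :
    gradX g (fun x => ((B x)⁻¹) ^ m) (fun x => ((B x)⁻¹) ^ m) x / ((B x)⁻¹) ^ m * (T * d) =
      (m : ℝ) ^ 2 * (((B x)⁻¹) ^ (m + 1) * (Qf g B x * T)) * d := by
  have h0 := (hB0 x).ne'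
  have h4 : ((B x)⁻¹) ^ m ≠ 0 := pow_ne_zero _ (inv_ne_zero h0)
  rw [gradX_rho m hB hB0 x, pow_succ]
  unfold Qf
  exact alg1 _ _ _ _ _ _ h4 h0

lemma IG_eq_aux (m : ℕ) (hg : IsHermitian g) (hh : IsHermitian h) (hB : SmoothFn (n := n) B)
    (hB0 : ∀ x, 0 < B x) :
    NF.IG g h (fun x => ((B x)⁻¹) ^ m) =
      IX g (fun x => (m : ℝ) ^ 2 * (((B x)⁻¹) ^ (m + 1) * (Qf g B x * trX g h x))) := by
  refine INT.intX_congr fun e x hx => ?_
  have hxx : e.symm (e x) = x := e.left_inv hx.2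
  have h1 := gradX_eq hg (sm_inv_pow hB hB0 m) (sm_inv_pow hB hB0 m) hx
  have h2 := Tr_eq hg hh hx
  have h3 := IG_point (g := g) m hB hB0 x (trX g h x) (g e (e x)).det.re
  show gradE g (fun x => ((B x)⁻¹) ^ m) (fun x => ((B x)⁻¹) ^ m) e (e x) /
    ((B (e.symm (e x)))⁻¹) ^ m * (Tr g h e (e x) * (g e (e x)).det.re) = _
  rw [← h1, h2, hxx, h3]

/-- `∫ ρ⁻¹|∂ρ|² T = (n-2)² ∫ G Q T` -/
lemma IG_eq (hn : 2 ≤ n) (hg : IsHermitian g) (hh : IsHermitian h) (hB : SmoothFn (n := n) B)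
    (hB0 : ∀ x, 0 < B x) :
    NF.IG g h (fun x => ((B x)⁻¹) ^ (n - 2)) =
      ((n : ℝ) - 2) ^ 2 * IX g (fun x => ((B x)⁻¹) ^ (n - 1) * (Qf g B x * trX g h x)) := by
  have hcast : ((n - 2 : ℕ) : ℝ) = (n : ℝ) - 2 := by rw [Nat.cast_sub hn]; norm_num
  have hn1 : n - 2 + 1 = n - 1 := by omega
  rw [IG_eq_aux (n - 2) hg hh hB hB0, hcast, hn1, IX_const_mul]

/-- **Block N5.** -/
theorem ddNF (hn : 2 ≤ n) (hw : IsKahler w) (hh : IsHermitian h) (hneg : NonposHSC h)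
    (hN1 : NF.N1 n X) (hN4 : NF.N4 n X) (hC : NF.CoerN h) :
    ∃ C : ℝ, 0 < C ∧ ∀ g : Chart n X → Cm n → Matrix (Fin n) (Fin n) ℂ, IsKahler g →
      T4.RicGe g →
      ∀ B : X → ℝ, SmoothFn (n := n) B → (∀ x, 0 < B x) → (∀ x, B x ≤ 1) →
      IX g (fun x => ((B x)⁻¹) ^ (n - 2) * (trX g w x) ^ 2) ≤
        C * (IX g (fun x => ((B x)⁻¹) ^ (n - 1)) +
          intX (fun (e : Chart n X) z => ((B (e.symm z))⁻¹) ^ n * sqE g (Hf g B) e z *
            (g e z).det.re)) := by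
  obtain ⟨χ, C4, hχ, hC4, h4⟩ := hN4 h hh hneg hC
  obtain ⟨c0, hc0, h1⟩ := hN1 χ hχ
  obtain ⟨Cw, hCw0, hCw⟩ := exists_comparison hh hw.toIsHermitian
  have hn2 : (0 : ℝ) ≤ (n : ℝ) - 2 := by
    have : (2 : ℝ) ≤ n := by exact_mod_cast hn
    linarith
  set K : ℝ := (n : ℝ) - 2 with hK
  set M : ℝ := 1 + 1 / (2 * c0) + K / (2 * c0) with hM
  have hM0 : 0 < M := by positivity
  set δ : ℝ := 1 / (6 * c0 * (C4 + 1) * M) with hδ
  have hδ0 : 0 < δ := by positivity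
  obtain ⟨Cδ, hCδ, hcore⟩ := core hn hw hh hδ0
  refine ⟨Cw ^ 2 * (2 * C4 * (1 + 2 * M * c0 * δ⁻¹) + 2 * C4 * M * c0 * Cδ) + 1, by positivity, ?_⟩
  intro g hg hric B hB hB0 hB1
  have hgH := hg.toIsHermitian
  set ρ : X → ℝ := fun x => ((B x)⁻¹) ^ (n - 2) with hρdef
  have hρ : SmoothFn (n := n) ρ := sm_inv_pow hB hB0 (n - 2)
  have hρpos : ∀ x, 0 < ρ x := fun x => by
    have := hB0 x
    positivity
  have hρ0 : ∀ x, 0 ≤ ρ x := fun x => (hρpos x).le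
  have hρc : Continuous ρ := INT.SmoothFn.continuous hρ
  have hT : SmoothFn (n := n) (trX g h) := smoothFn_trX hgH hh.isForm hh.smooth
  have hTw : SmoothFn (n := n) (trX g w) := smoothFn_trX hgH hw.isForm hw.smooth
  have hTc := INT.SmoothFn.continuous hT
  have hTwc := INT.SmoothFn.continuous hTw
  have hρT : Continuous fun x => ρ x * trX g h x ^ 2 := hρc.mul (hTc.pow 2)
  have hT0 : ∀ x, 0 ≤ trX g h x := fun x => by
    have hx := at_chartAt (n := n) x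
    rw [trX_eq hgH hh.isForm hx]
    exact tr_nonneg (hgH.posDef _ x hx) (hh.posDef _ x hx).posSemidef
  have hQ0 : ∀ x, 0 ≤ Qf g B x := fun x =>
    div_nonneg (gradX_self_nonneg hgH.posDef B x) (hB0 x).le
  set HH := intX (fun (e : Chart n X) z => ((B (e.symm z))⁻¹) ^ n * sqE g (Hf g B) e z *
    (g e z).det.re) with hHH
  set J := IX g (fun x => ((B x)⁻¹) ^ (n - 1) * (Qf g B x * trX g h x)) with hJ
  set I0 := IX g ρ with hI0
  set I2 := IX g (fun x => ρ x * trX g h x ^ 2) with hI2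
  set G0 := IX g (fun x => ((B x)⁻¹) ^ (n - 1)) with hG0
  have e0 : NF.IT 0 g h ρ = I0 := by
    rw [IT_eq hgH hh]
    simp only [pow_zero, mul_one]
    rfl
  have e1 : NF.IT 1 g h ρ = IX g (fun x => ρ x * trX g h x) := by
    rw [IT_eq hgH hh]
    simp only [pow_one]
  have e2 : NF.IT 2 g h ρ = I2 := IT_eq hgH hh 2
  have eG : NF.IG g h ρ = K ^ 2 * J := IG_eq hn hgH hh hB hB0
  have j0 : 0 ≤ J := IX_nonneg hgH fun x => by
    have h1 := hB0 x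
    have h2 := hQ0 x
    have h3 := hT0 x
    positivity
  have i0 : 0 ≤ I0 := IX_nonneg hgH hρ0
  have i2 : 0 ≤ I2 := IX_nonneg hgH fun x => mul_nonneg (hρ0 x) (sq_nonneg _)
  have hp := IP_nonneg (χ := χ) (ρ := ρ) hχ hgH hh hneg hρ0
  have hm := IM_nonneg (ρ := ρ) hgH hh hric hρ0
  have n2 : 0 ≤ HH := INT.intX_nonneg fun e x hx => by
    have hG := hgH.posDef e x hx
    have hdet : 0 < (g e (e x)).det.re := (Complex.lt_def.1 hG.det_pos).1
    have hHfH : (Hf g B e (e x)).IsHermitian := by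
      unfold Hf
      refine Matrix.IsHermitian.sub (cHess_isHermitian ((hB e x hx).of_le (by norm_cast))) ?_
      exact hG.isHermitian.smul (by simp only [IsSelfAdjoint, Complex.star_def, Complex.conj_ofReal])
    have h1 : 0 ≤ sqE g (Hf g B) e (e x) := pr_self_nonneg hG hHfH
    have h2 := hB0 (e.symm (e x))
    positivity
  -- N1
  have k1 := h1 h hh g hg ρ hρ
  rw [e1] at k1
  -- core
  have k2 := hcore g hg B hB hB0
  -- the first moment
  have k3 : IX g (fun x => ρ x * trX g h x) ≤ δ * I2 + δ⁻¹ * I0 := by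
    have s1 := IX_add hgH (f := fun x => δ * (ρ x * trX g h x ^ 2)) (f' := fun x => δ⁻¹ * ρ x)
      (continuous_const.mul hρT) (continuous_const.mul hρc)
    rw [hI2, hI0, ← IX_const_mul, ← IX_const_mul, ← s1]
    refine IX_mono hgH (hρc.mul hTc) ((continuous_const.mul hρT).add (continuous_const.mul hρc))
      fun x => ?_
    exact alg2 hδ0 (hρ0 x)
  -- N4
  have k4 := h4 g hg hric ρ hρ hρpos
  rw [e0, e2, eG] at k4
  have k8 : I2 ≤ 2 * C4 * (1 + 2 * M * c0 * δ⁻¹) * I0 + 2 * C4 * M * c0 * Cδ * HH :=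
    arith hc0 hC4 hn2 hM hδ j0 i2 hp hm k1 k2 k3 k4
  have i4 : I0 ≤ G0 := by
    refine IX_mono hgH hρc (INT.SmoothFn.continuous (sm_inv_pow hB hB0 (n - 1))) fun x => ?_
    exact pow_le_pow_right₀ ((one_le_inv₀ (hB0 x)).2 (hB1 x)) (by omega)
  have i5 : IX g (fun x => ρ x * trX g w x ^ 2) ≤ Cw ^ 2 * I2 := by
    rw [hI2, ← IX_const_mul]
    refine IX_mono hgH (hρc.mul (hTwc.pow 2)) (continuous_const.mul hρT) fun x => ?_
    have hx := at_chartAt (n := n) x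
    set e := chartAt (Cm n) x
    have hG := hgH.posDef e x hx
    have eT : trX g h x = tr (g e (e x)) (h e (e x)) := trX_eq hgH hh.isForm hx
    have eTw : trX g w x = tr (g e (e x)) (w e (e x)) := trX_eq hgH hw.isForm hx
    have h1 : 0 ≤ tr (g e (e x)) (w e (e x)) := tr_nonneg hG (hw.posDef e x hx).posSemidef
    have h2 : tr (g e (e x)) (w e (e x)) ≤ Cw * tr (g e (e x)) (h e (e x)) := by
      have := tr_nonneg hG (hCw e x hx)
      rw [tr_sub, tr_smul] at this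
      linarith
    rw [eT, eTw]
    have h3 : tr (g e (e x)) (w e (e x)) ^ 2 ≤ Cw ^ 2 * tr (g e (e x)) (h e (e x)) ^ 2 := by
      rw [← mul_pow]
      exact pow_le_pow_left₀ h1 h2 2
    have := mul_le_mul_of_nonneg_left h3 (hρ0 x)
    linarith
  exact arith2 (by positivity) (by positivity) (by positivity) i0 n2 i4 k8 i5

end Vale.Agent.P272.K.AMP.DD.N5
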