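import Vale.Agent.P272.K.AMP.DD.Main

/-!
# AMP-NF: the weighted estimate of `∫ Qd g h ρ` with the good term `∫ G Q T` kept

`ρ = B^{-(n-2)}`, `G = B^{-(n-1)}`, `Q = |∂B|²/B`, `H = i∂∂̄B - Q g`, `T = tr_g h`. No curvature
assumption is used.
-/

open scoped Manifold ContDiff ComplexOrder Topology
open Complex Set Filter MeasureTheory

set_option linter.all false

noncomputable section

namespace Vale.Agent.P272.K.AMP.DD.N5


open INT (IsDensity intX part Part IsClosedForm)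

section point

variable {n : ℕ} {G A C D H : Matrix (Fin n) (Fin n) ℂ}

/-- **The pointwise estimate, with the good term.** `R = i∂∂̄ρ`, `ρ = r^{n-2}`, `r = 1/B`, `Q = |∂B|²/B`, `D = ∂B ⊗ ∂̄B`,
`H = i∂∂̄B - Q g`, `K = n - 2`. -/
theorem point' {Cw Ch r q ρ ρ1 ρ2 : ℝ} {h w : Matrix (Fin n) (Fin n) ℂ} (hn : 2 ≤ n)
    (hG : G.PosDef) (hh : h.PosSemidef) (hw : w.PosSemidef) (hD : D.PosSemidef)
    (hH : H.IsHermitian) (hCh0 : 0 ≤ Ch) (hCw0 : 0 ≤ Cw)
    (hCh : ((Ch : ℂ) • w - h).PosSemidef) (hCw : ((Cw : ℂ) • h - w).PosSemidef)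
    (hr : 0 < r) (hρ : 0 ≤ ρ) (hρ1 : ρ1 = ρ * r) (hρ2 : ρ2 = ρ * r ^ 2)
    (hq : tr G D = q / r) (hq0 : 0 ≤ q) {ε : ℝ} (hε : 0 < ε)
    {R : Matrix (Fin n) (Fin n) ℂ}
    (hR : R = ((-(((n : ℝ) - 2) * ρ1) : ℝ) : ℂ) • (H + (q : ℂ) • G) +
      (((((n : ℝ) - 2) * ((n : ℝ) - 1) * ρ2) : ℝ) : ℂ) • D) :
    (tr G h * tr G R + pr G h R) + Ch * (tr G w * tr G R - pr G w R) +
        2 * (((n : ℝ) - 2) * (ρ1 * (q * tr G h))) ≤
      (((n : ℝ) - 2) / 2) * (ε * (n + 1) * (1 + Ch * Cw ^ 2) * (ρ * tr G h ^ 2) +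
        (2 + 2 * Ch) * ε⁻¹ * (ρ2 * pr G H H)) := by
  have hn2 : (0 : ℝ) ≤ (n : ℝ) - 2 := by
    have : (2 : ℝ) ≤ n := by exact_mod_cast hn
    linarith
  have hTh : 0 ≤ tr G h := tr_nonneg hG hh
  have hTw : 0 ≤ tr G w := tr_nonneg hG hw
  have hTw' : tr G w ≤ Cw * tr G h := by
    have := tr_nonneg hG hCw
    rw [tr_sub, tr_smul] at this
    linarith
  have hD' : pr G h D ≤ Ch * pr G w D := by
    have := pr_nonneg hG hCh hD
    rw [pr_sub_left, pr_smul_left] at this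
    linarith
  have tR : tr G R = -(((n : ℝ) - 2) * ρ1) * (tr G H + q * n) +
      (((n : ℝ) - 2) * ((n : ℝ) - 1) * ρ2) * (q / r) := by
    rw [hR, tr_add, tr_smul, tr_smul, tr_add, tr_smul, tr_G hG, hq]
  have pR : ∀ A, pr G A R = -(((n : ℝ) - 2) * ρ1) * (pr G A H + q * tr G A) +
      (((n : ℝ) - 2) * ((n : ℝ) - 1) * ρ2) * pr G A D := by
    intro A
    rw [hR, pr_add_right, pr_smul_right, pr_smul_right, pr_add_right, pr_smul_right,
      pr_G_right hG]
  have tR' : tr G R = -(((n : ℝ) - 2) * ρ1) * (tr G H + q) := by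
    rw [tR, hρ1, hρ2]
    field_simp
    ring
  rw [tR', pR h, pR w]
  -- the four Young inequalities
  have y1 := young_tr (r := r) hG hH hε (tr G h)
  have y2 := young_pr (r := r) hG hh hH hε (-1) (by norm_num)
  have y3 := young_tr (r := r) hG hH hε (tr G w)
  have y4 := young_pr (r := r) hG hw hH hε 1 (by norm_num)
  have hpH : 0 ≤ pr G H H := pr_self_nonneg hG hH
  have hTw2 : tr G w ^ 2 ≤ Cw ^ 2 * tr G h ^ 2 := by
    rw [← mul_pow]
    exact pow_le_pow_left₀ hTw hTw' 2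
  -- the sum
  have s1 : 2 * r * (-(tr G h * tr G H) - pr G h H) + Ch * (2 * r * (-(tr G w * tr G H) + pr G w H)) ≤
      ε * (n + 1) * (1 + Ch * Cw ^ 2) * tr G h ^ 2 + (2 + 2 * Ch) * ε⁻¹ * (r ^ 2 * pr G H H) := by
    have a1 : Ch * (2 * r * (-(tr G w * tr G H) + pr G w H)) ≤
        Ch * (ε * (n + 1) * tr G w ^ 2 + 2 * ε⁻¹ * (r ^ 2 * pr G H H)) := by
      refine mul_le_mul_of_nonneg_left ?_ hCh0
      linarith
    have a2 : ε * (n + 1) * tr G w ^ 2 ≤ ε * (n + 1) * (Cw ^ 2 * tr G h ^ 2) :=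
      mul_le_mul_of_nonneg_left hTw2 (by positivity)
    have a3 := mul_le_mul_of_nonneg_left a2 hCh0
    linarith
  have s2 := mul_le_mul_of_nonneg_left s1 (mul_nonneg hn2 hρ)
  have e1 : (tr G h * (-(((n : ℝ) - 2) * ρ1) * (tr G H + q)) +
        (-(((n : ℝ) - 2) * ρ1) * (pr G h H + q * tr G h) +
          ((n : ℝ) - 2) * ((n : ℝ) - 1) * ρ2 * pr G h D)) +
      Ch * (tr G w * (-(((n : ℝ) - 2) * ρ1) * (tr G H + q)) -
        (-(((n : ℝ) - 2) * ρ1) * (pr G w H + q * tr G w) +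
          ((n : ℝ) - 2) * ((n : ℝ) - 1) * ρ2 * pr G w D)) =
      (1 / 2) * ((((n : ℝ) - 2) * ρ) * (2 * r * (-(tr G h * tr G H) - pr G h H) +
        Ch * (2 * r * (-(tr G w * tr G H) + pr G w H)))) -
      2 * (((n : ℝ) - 2) * ρ1 * (q * tr G h)) -
      ((n : ℝ) - 2) * ((n : ℝ) - 1) * ρ2 * (Ch * pr G w D - pr G h D) := by
    rw [hρ1, hρ2]
    ring
  rw [e1]
  have t1 : 0 ≤ ((n : ℝ) - 2) * ρ1 * (q * tr G h) := by
    rw [hρ1]; positivity
  have t2 : 0 ≤ ((n : ℝ) - 2) * ((n : ℝ) - 1) * ρ2 * (Ch * pr G w D - pr G h D) := by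
    rw [hρ2]
    have : 0 ≤ Ch * pr G w D - pr G h D := by linarith
    have h1 : (0 : ℝ) ≤ (n : ℝ) - 1 := by linarith
    positivity
  have e2 : (((n : ℝ) - 2) / 2) * (ε * (n + 1) * (1 + Ch * Cw ^ 2) * (ρ * tr G h ^ 2) +
        (2 + 2 * Ch) * ε⁻¹ * (ρ2 * pr G H H)) =
      (1 / 2) * (((n : ℝ) - 2) * ρ * (ε * (n + 1) * (1 + Ch * Cw ^ 2) * tr G h ^ 2 +
        (2 + 2 * Ch) * ε⁻¹ * (r ^ 2 * pr G H H))) := by
    rw [hρ2]; ring
  rw [e2]
  linarith

end point

variable {n : ℕ} {X : Type*} [TopologicalSpace X] [ChartedSpace (Cm n) X]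
  [IsManifold 𝓘(ℂ, Cm n) ω X] [T2Space X] [CompactSpace X]
  {w h : Chart n X → Cm n → Matrix (Fin n) (Fin n) ℂ}

/-- the weighted estimate -/
theorem core (hn : 2 ≤ n) (hw : IsKahler w) (hh : IsHermitian h) {δ : ℝ} (hδ : 0 < δ) :
    ∃ C : ℝ, 0 ≤ C ∧ ∀ g : Chart n X → Cm n → Matrix (Fin n) (Fin n) ℂ, IsKahler g →
      ∀ B : X → ℝ, SmoothFn (n := n) B → (∀ x, 0 < B x) →
      intX (Qd g h (fun x => ((B x)⁻¹) ^ (n - 2))) +
        2 * ((n : ℝ) - 2) * IX g (fun x => ((B x)⁻¹) ^ (n - 1) * (Qf g B x * trX g h x)) ≤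
      δ * IX g (fun x => ((B x)⁻¹) ^ (n - 2) * trX g h x ^ 2) +
        C * intX (fun (e : Chart n X) z => ((B (e.symm z))⁻¹) ^ n * sqE g (Hf g B) e z *
          (g e z).det.re) := by
  obtain ⟨Cw, hCw0, hCw⟩ := exists_comparison hh hw.toIsHermitian
  obtain ⟨Ch, hCh0, hCh⟩ := exists_comparison hw.toIsHermitian hh
  have hn2 : (0 : ℝ) ≤ (n : ℝ) - 2 := by
    have : (2 : ℝ) ≤ n := by exact_mod_cast hn
    linarith
  set K : ℝ := (n : ℝ) - 2 with hK
  set c0 : ℝ := ((n : ℝ) + 1) * (1 + Ch * Cw ^ 2) with hc0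
  have hc0p : 0 < c0 := by positivity
  set ε : ℝ := 2 * δ / ((K + 1) * c0) with hε
  have hε0 : 0 < ε := by positivity
  set C1 : ℝ := K / 2 * ((2 + 2 * Ch) * ε⁻¹) with hC1
  have hC10 : 0 ≤ C1 := by positivity
  refine ⟨C1, hC10, ?_⟩
  intro g hg B hB hB0
  have hgH := hg.toIsHermitian
  set ρ : X → ℝ := fun x => ((B x)⁻¹) ^ (n - 2) with hρdef
  have hρ : SmoothFn (n := n) ρ := sm_inv_pow hB hB0 (n - 2)
  have hρ0 : ∀ x, 0 ≤ ρ x := fun x => by
    have := hB0 x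
    positivity
  have hρc : Continuous ρ := INT.SmoothFn.continuous hρ
  have hT : SmoothFn (n := n) (trX g h) := smoothFn_trX hgH hh.isForm hh.smooth
  have hTc := INT.SmoothFn.continuous hT
  have hQc := INT.SmoothFn.continuous (smooth_Qf hgH hB hB0)
  have hGc := INT.SmoothFn.continuous (sm_inv_pow hB hB0 (n - 1))
  set DH : Chart n X → Cm n → ℝ := fun e z => ((B (e.symm z))⁻¹) ^ n * sqE g (Hf g B) e z *
    (g e z).det.re with hDH
  have hDHd : IsDensity DH := isDensity_sq hgH hB hB0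
  have hQdd : IsDensity (Qd g h ρ) := isDensity_Qd hgH hh hρ
  have hW1d : IsDensity (W1 g w ρ) := isDensity_W1 hgH hw.toIsHermitian hρ
  have hρT : Continuous fun x => ρ x * trX g h x ^ 2 := hρc.mul (hTc.pow 2)
  have hGQT : Continuous fun x => ((B x)⁻¹) ^ (n - 1) * (Qf g B x * trX g h x) :=
    hGc.mul (hQc.mul hTc)
  -- the pointwise estimate
  have hpt : ∀ e x, At e x → Qd g h ρ e (e x) + Ch * W1 g w ρ e (e x) +
      2 * K * ((fun x => ((B x)⁻¹) ^ (n - 1) * (Qf g B x * trX g h x)) (e.symm (e x)) *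
        (g e (e x)).det.re) ≤
      δ * ((fun x => ρ x * trX g h x ^ 2) (e.symm (e x)) * (g e (e x)).det.re) +
        C1 * DH e (e x) := by
    intro e x hx
    have hxx : e.symm (e x) = x := e.left_inv hx.2
    have hG := hgH.posDef e x hx
    have hBx := hB0 x
    have hq0 : 0 ≤ Qf g B x := div_nonneg (gradX_self_nonneg hgH.posDef B x) hBx.le
    have hHess : (hess ρ e (e x)).IsHermitian :=
      cHess_isHermitian ((hρ e x hx).of_le (by norm_cast))
    have hHfH : (Hf g B e (e x)).IsHermitian := by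
      unfold Hf
      refine Matrix.IsHermitian.sub (cHess_isHermitian ((hB e x hx).of_le (by norm_cast))) ?_
      exact hG.isHermitian.smul (by simp only [IsSelfAdjoint, Complex.star_def, Complex.conj_ofReal])
    have key := point' (G := g e (e x)) (h := h e (e x)) (w := w e (e x)) (D := dd B B e (e x))
      (H := Hf g B e (e x)) (R := hess ρ e (e x)) (Cw := Cw) (Ch := Ch)
      (r := (B x)⁻¹) (q := Qf g B x) (ρ := ρ x) (ρ1 := ρ x * (B x)⁻¹) (ρ2 := ρ x * (B x)⁻¹ ^ 2)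
      (ε := ε) hn hG (hh.posDef e x hx).posSemidef (hw.posDef e x hx).posSemidef
      (dd_self_posSemidef B e (e x)) hHfH hCh0.le hCw0.le (hCh e x hx) (hCw e x hx)
      (inv_pos.2 hBx) (hρ0 x) rfl rfl
      (by
        have h1 := gradX_eq hgH hB hB hx
        show gradE g B B e (e x) = _
        rw [← h1, Qf]
        field_simp)
      hq0 hε0 (hess_rho hn hB hB0 hx)
    have hdet : 0 < (g e (e x)).det.re := (Complex.lt_def.1 hG.det_pos).1
    have eQ : Qd g h ρ e (e x) = (tr (g e (e x)) (h e (e x)) * tr (g e (e x)) (hess ρ e (e x)) +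
        pr (g e (e x)) (h e (e x)) (hess ρ e (e x))) * (g e (e x)).det.re := rfl
    have eW : W1 g w ρ e (e x) = (tr (g e (e x)) (w e (e x)) * tr (g e (e x)) (hess ρ e (e x)) -
        pr (g e (e x)) (w e (e x)) (hess ρ e (e x))) * (g e (e x)).det.re := by
      unfold W1
      rw [trace_real hG (hw.posDef e x hx).isHermitian, trace_real hG hHess, Complex.sub_re,
        ← Complex.ofReal_mul, Complex.ofReal_re]
      rfl
    have eT : trX g h x = tr (g e (e x)) (h e (e x)) := trX_eq hgH hh.isForm hx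
    have eD : DH e (e x) = (ρ x * (B x)⁻¹ ^ 2) * pr (g e (e x)) (Hf g B e (e x))
        (Hf g B e (e x)) * (g e (e x)).det.re := by
      simp only [hDH, hxx, hρdef]
      rw [← pow_add, Nat.sub_add_cancel hn]
      rfl
    have eG : ((B x)⁻¹) ^ (n - 1) = ρ x * (B x)⁻¹ := by
      simp only [hρdef]
      rw [← pow_succ]
      congr 1
      omega
    rw [eQ, eW, eD]
    simp only [hxx]
    rw [eT, eG]
    have k1 := mul_le_mul_of_nonneg_right key hdet.le
    have k2 : K / 2 * (ε * (n + 1) * (1 + Ch * Cw ^ 2) * (ρ x * tr (g e (e x)) (h e (e x)) ^ 2)) ≤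
        δ * (ρ x * tr (g e (e x)) (h e (e x)) ^ 2) := by
      have : K / 2 * (ε * c0) ≤ δ := by
        rw [hε]
        have : K / 2 * (2 * δ / ((K + 1) * c0) * c0) = δ * (K / (K + 1)) := by
          field_simp
        rw [this]
        have h1 : K / (K + 1) ≤ 1 := by
          rw [div_le_one (by positivity)]; linarith
        nlinarith
      have h2 : 0 ≤ ρ x * tr (g e (e x)) (h e (e x)) ^ 2 := mul_nonneg (hρ0 x) (sq_nonneg _)
      have h3 := mul_le_mul_of_nonneg_right this h2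
      calc _ = K / 2 * (ε * c0) * (ρ x * tr (g e (e x)) (h e (e x)) ^ 2) := by rw [hc0]; ring
        _ ≤ _ := h3
    have k3 := mul_le_mul_of_nonneg_right k2 hdet.le
    calc _ = ((tr (g e (e x)) (h e (e x)) * tr (g e (e x)) (hess ρ e (e x)) +
            pr (g e (e x)) (h e (e x)) (hess ρ e (e x))) +
          Ch * (tr (g e (e x)) (w e (e x)) * tr (g e (e x)) (hess ρ e (e x)) -
            pr (g e (e x)) (w e (e x)) (hess ρ e (e x))) +
          2 * (((n : ℝ) - 2) * (ρ x * (B x)⁻¹ * (Qf g B x * tr (g e (e x)) (h e (e x)))))) *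
            (g e (e x)).det.re := by rw [hK]; ring
      _ ≤ _ := k1
      _ = K / 2 * (ε * (n + 1) * (1 + Ch * Cw ^ 2) * (ρ x * tr (g e (e x)) (h e (e x)) ^ 2)) *
            (g e (e x)).det.re +
          C1 * (ρ x * (B x)⁻¹ ^ 2 * pr (g e (e x)) (Hf g B e (e x)) (Hf g B e (e x)) *
            (g e (e x)).det.re) := by rw [hC1]; ring
      _ ≤ _ := by linarith
  -- integrate
  have hdI : IsDensity (fun (e : Chart n X) z =>
      (fun x => ρ x * trX g h x ^ 2) (e.symm z) * (g e z).det.re) := isDensity_IX hgH hρT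
  have hdJ : IsDensity (fun (e : Chart n X) z =>
      (fun x => ((B x)⁻¹) ^ (n - 1) * (Qf g B x * trX g h x)) (e.symm z) * (g e z).det.re) :=
    isDensity_IX hgH hGQT
  have a1 := INT.intX_mono ((hQdd.add (hW1d.const_mul Ch)).add (hdJ.const_mul (2 * K)))
    ((hdI.const_mul δ).add (hDHd.const_mul C1)) hpt
  rw [INT.intX_add (hQdd.add (hW1d.const_mul Ch)) (hdJ.const_mul (2 * K)),
    INT.intX_add hQdd (hW1d.const_mul Ch), INT.intX_const_mul, INT.intX_const_mul, INT.intX_add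
    (hdI.const_mul δ) (hDHd.const_mul C1), INT.intX_const_mul, INT.intX_const_mul] at a1
  have a2 : intX (W1 g w ρ) = 0 := intX_closed hg (INT.IsKahler.isClosedForm hw) hρ
  rw [a2, mul_zero, add_zero] at a1
  exact a1

end Vale.Agent.P272.K.AMP.DD.N5
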